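import Vale.Agent.P252D.CertGlue
import Vale.Agent.P252E.Homog

/-!
The divergence identities on the sections of a solution.
-/

open Finset Topology Filter MeasureTheory Set

noncomputable section

set_option maxSynthPendingDepth 3

namespace Vale.Agent.P252E

open Vale.Agent.P252D (Sol qX dt lg gdot DivSpec)
open Vale.Agent.P252B (pd)

lemma smooth_sol (P : Sol) : Smooth P.Ω P.u := ⟨P.isOpen, P.smooth, fun _ hx => P.posDef hx⟩

lemma jet_X {u : E → ℝ} {Ω : Set E} (S : Smooth Ω u) {x : E} (hx : x ∈ Ω) {e : Fin 3 → E}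
    (he : Smooth.Frame u x e) (h : ℝ) : (jet u h e x).X = qX u x := by
  have h1 := S.tr3_inverse hx ((DLf u x).smulRight (DLf u x))
  rw [S.tr3_inverse_frame hx he] at h1
  refine (h1.trans ?_)
  simp only [ContinuousLinearMap.smulRight_apply, smul_apply, smul_eq_mul, qX, gdot, pd]
  rw [Finset.sum_comm]
  refine Finset.sum_congr rfl fun i _ => Finset.sum_congr rfl fun j _ => ?_
  change DLf u x (sgl j) * DLf u x (sgl i) * _ = _ * DLf u x (sgl i) * DLf u x (sgl j)
  ring

/-- The divergence identities. -/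
theorem divSpec (σ : ℝ) (m : ℕ) : DivSpec σ m := by
  classical
  intro P h _
  have S := smooth_sol P
  set J : E → Jet := fun x =>
    if hx : x ∈ P.Ω then jet P.u h (S.exists_frame hx).choose x else jet P.u h (fun _ => 0) x
    with hJ
  refine ⟨J, fun x hx => ?_, fun F k hm => ?_⟩
  · have he := (S.exists_frame hx.1).choose_spec
    simp only [hJ, dif_pos hx.1]
    exact ⟨S.jet_valid P.am hx.1 hx.2 he, jet_X S hx.1 he h, rfl⟩
  · have hm' : udeg F k ≤ m := le_trans (Nat.le_add_right _ 2) hm
    obtain ⟨hI, h0⟩ := S.integral_fieldT σ h (n := m - udeg F k) (by omega) F k (P.isCompact_csec h)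
    have hkey : EqOn (fun x => tr3 (fderiv ℝ (fieldT P.u σ h (m - udeg F k) F k) x))
        (fun x => P.cut h x ^ m * dt P.u x ^ σ * (J x).Phi σ m F k) (P.sec h) := by
      intro x hx
      have he := (S.exists_frame hx.1).choose_spec
      have hev : fieldT P.u σ h (m - udeg F k) F k =ᶠ[𝓝 x] field P.u σ h m F k :=
        eventually_of_mem ((P.isOpen_sec h).mem_nhds hx) fun y hy =>
          (field_eq σ h F k hm' (sub_pos.2 hy.2).ne').symm
      simp only [hev.fderiv_eq, (S.tr3_field P.am hx.1 hx.2 he σ m F k).2, hJ, dif_pos hx.1]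
      congr 2
      rw [Real.rpow_def_of_pos (P.dt_pos hx.1)]
      congr 1
      simp only [Lf, dt]
      ring
    exact ⟨IntegrableOn.congr_fun hI hkey (P.measurableSet_sec h),
      (setIntegral_congr_fun (P.measurableSet_sec h) hkey).symm.trans h0⟩

end Vale.Agent.P252E
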