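import Vale.Agent.P252.Defs
import Vale.Agent.P252B.Smooth
import Vale.Agent.P252E.Jet

/-!
Calculus of the Hessian metric `g = D²u` on `ℝ³`, free of coordinates.
-/

open Finset Topology Filter
open scoped MatrixOrder

noncomputable section

set_option maxSynthPendingDepth 3

namespace Vale.Agent.P252E

open Vale.Agent.P252 (hessian)

/-- the space -/
abbrev E := EuclideanSpace ℝ (Fin 3)

variable (u : E → ℝ)

/-- the differential -/
def du : E → E →L[ℝ] ℝ := fderiv ℝ u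
/-- the Hessian as a bilinear map -/
def gg : E → E →L[ℝ] E →L[ℝ] ℝ := fderiv ℝ (du u)
/-- the third derivative -/
def CC : E → E →L[ℝ] E →L[ℝ] E →L[ℝ] ℝ := fderiv ℝ (gg u)
/-- `-log det D²u / 5` -/
def Lf (x : E) : ℝ := -Real.log (hessian u x).det / 5
/-- its differential -/
def DLf : E → E →L[ℝ] ℝ := fderiv ℝ (Lf u)
/-- its second derivative -/
def D2L : E → E →L[ℝ] E →L[ℝ] ℝ := fderiv ℝ (DLf u)
/-- raising of an index -/
def upv (x : E) (w : E →L[ℝ] ℝ) : E := (gg u x).inverse w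

/-- coordinate vectors -/
abbrev sgl (i : Fin 3) : E := EuclideanSpace.single i (1 : ℝ)

/-- trace in coordinates -/
def tr3 (T : E →L[ℝ] E) : ℝ := ∑ i, T (sgl i) i

lemma hessian_gg (x : E) (i j : Fin 3) : hessian u x i j = gg u x (sgl i) (sgl j) := rfl

lemma expand (y : E) : y = ∑ i, y i • sgl i := by
  ext k
  simp [WithLp.ofLp_sum, Finset.sum_apply, Pi.single_apply]

variable {u} {Ω : Set E}

/-- Smooth with positive definite Hessian on an open set. -/
structure Smooth (Ω : Set E) (u : E → ℝ) : Prop where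
  isOpen : IsOpen Ω
  smooth : ContDiffOn ℝ (↑(⊤ : ℕ∞)) u Ω
  pos : ∀ x ∈ Ω, (hessian u x).PosDef

namespace Smooth

lemma cd_du (S : Smooth Ω u) : ContDiffOn ℝ (↑(⊤ : ℕ∞)) (du u) Ω :=
  S.smooth.fderiv_of_isOpen S.isOpen (by simp)

lemma cd_gg (S : Smooth Ω u) : ContDiffOn ℝ (↑(⊤ : ℕ∞)) (gg u) Ω :=
  S.cd_du.fderiv_of_isOpen S.isOpen (by simp)

lemma cd_CC (S : Smooth Ω u) : ContDiffOn ℝ (↑(⊤ : ℕ∞)) (CC u) Ω :=
  S.cd_gg.fderiv_of_isOpen S.isOpen (by simp)

lemma cd_entry (S : Smooth Ω u) (i j : Fin 3) :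
    ContDiffOn ℝ (↑(⊤ : ℕ∞)) (fun x => hessian u x i j) Ω :=
  (S.cd_gg.clm_apply contDiffOn_const).clm_apply contDiffOn_const

lemma cd_det (S : Smooth Ω u) : ContDiffOn ℝ (↑(⊤ : ℕ∞)) (fun x => (hessian u x).det) Ω := by
  simp only [Matrix.det_fin_three]
  have h := S.cd_entry
  fun_prop

lemma cd_Lf (S : Smooth Ω u) : ContDiffOn ℝ (↑(⊤ : ℕ∞)) (Lf u) Ω :=
  ((S.cd_det.log fun x hx => (S.pos x hx).det_pos.ne').neg).div_const 5

lemma cd_DLf (S : Smooth Ω u) : ContDiffOn ℝ (↑(⊤ : ℕ∞)) (DLf u) Ω :=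
  S.cd_Lf.fderiv_of_isOpen S.isOpen (by simp)

lemma cd_D2L (S : Smooth Ω u) : ContDiffOn ℝ (↑(⊤ : ℕ∞)) (D2L u) Ω :=
  S.cd_DLf.fderiv_of_isOpen S.isOpen (by simp)

variable {x : E}

lemma cdAt {F : Type*} [NormedAddCommGroup F] [NormedSpace ℝ F] {f : E → F} (S : Smooth Ω u)
    (hf : ContDiffOn ℝ (↑(⊤ : ℕ∞)) f Ω) (hx : x ∈ Ω) : ContDiffAt ℝ (↑(⊤ : ℕ∞)) f x :=
  hf.contDiffAt (S.isOpen.mem_nhds hx)

lemma dAt {F : Type*} [NormedAddCommGroup F] [NormedSpace ℝ F] {f : E → F} (S : Smooth Ω u)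
    (hf : ContDiffOn ℝ (↑(⊤ : ℕ∞)) f Ω) (hx : x ∈ Ω) : HasFDerivAt f (fderiv ℝ f x) x :=
  ((S.cdAt hf hx).differentiableAt (by simp)).hasFDerivAt

lemma gg_symm (S : Smooth Ω u) (hx : x ∈ Ω) (a b : E) : gg u x a b = gg u x b a :=
  (S.cdAt S.smooth hx).isSymmSndFDerivAt (by simp; decide) a b

lemma gg_pos (S : Smooth Ω u) (hx : x ∈ Ω) {a : E} (ha : a ≠ 0) : 0 < gg u x a a := by
  have h := (S.pos x hx).dotProduct_mulVec_pos (x := (fun i => a i))
    (fun h => ha (by ext i; exact congrFun h i))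
  have e1 : gg u x a a = ∑ i, ∑ j, a i * (a j * hessian u x i j) := by
    conv_lhs => rw [expand a]
    simp only [map_sum, map_smul, _root_.sum_apply, smul_apply, smul_eq_mul, ← hessian_gg,
      Finset.mul_sum]
    rw [Finset.sum_comm]
    exact Finset.sum_congr rfl fun i _ => Finset.sum_congr rfl fun j _ => by ring
  rw [e1]
  refine h.trans_eq ?_
  simp only [dotProduct, Matrix.mulVec, star_trivial, Finset.mul_sum]
  exact Finset.sum_congr rfl fun i _ => Finset.sum_congr rfl fun j _ => by ring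

lemma isInvertible (S : Smooth Ω u) (hx : x ∈ Ω) : (gg u x).IsInvertible := by
  have hinj : Function.Injective (gg u x : E →ₗ[ℝ] E →L[ℝ] ℝ) := by
    rw [← LinearMap.ker_eq_bot, LinearMap.ker_eq_bot']
    intro a ha
    by_contra h
    have := S.gg_pos hx h
    rw [show gg u x a = 0 from ha] at this
    simp at this
  have hdim : Module.finrank ℝ E = Module.finrank ℝ (E →L[ℝ] ℝ) := by
    rw [← (LinearMap.toContinuousLinearMap (𝕜 := ℝ) (E := E) (F' := ℝ)).finrank_eq,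
      Subspace.dual_finrank_eq]
  exact ⟨(LinearEquiv.ofBijective (gg u x : E →ₗ[ℝ] E →L[ℝ] ℝ)
    ⟨hinj, (LinearMap.injective_iff_surjective_of_finrank_eq_finrank hdim).1 hinj⟩).toContinuousLinearEquiv,
    rfl⟩

lemma gg_upv (S : Smooth Ω u) (hx : x ∈ Ω) (w : E →L[ℝ] ℝ) : gg u x (upv u x w) = w := by
  obtain ⟨e, he⟩ := S.isInvertible hx
  rw [upv, ← he, ContinuousLinearMap.inverse_equiv]
  exact e.apply_symm_apply w

lemma gg_inj (S : Smooth Ω u) (hx : x ∈ Ω) {a b : E} (h : gg u x a = gg u x b) : a = b := by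
  obtain ⟨e, he⟩ := S.isInvertible hx
  rw [← he] at h
  exact e.injective h

lemma cd_inverse (S : Smooth Ω u) (hx : x ∈ Ω) :
    ContDiffAt ℝ (↑(⊤ : ℕ∞)) (fun y => (gg u y).inverse) x :=
  (S.isInvertible hx).contDiffAt_map_inverse.comp x (S.cdAt S.cd_gg hx)

lemma cd_upv (S : Smooth Ω u) {w : E → E →L[ℝ] ℝ} (hw : ContDiffOn ℝ (↑(⊤ : ℕ∞)) w Ω) :
    ContDiffOn ℝ (↑(⊤ : ℕ∞)) (fun y => upv u y (w y)) Ω := fun y hy =>
  (((S.cd_inverse hy).clm_apply (S.cdAt hw hy))).contDiffWithinAt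

/-- Derivative of `g⁻¹ w`, lowered. -/
lemma gg_fderiv_upv (S : Smooth Ω u) (hx : x ∈ Ω) {w : E → E →L[ℝ] ℝ}
    {w' : E →L[ℝ] E →L[ℝ] ℝ} (hw : HasFDerivAt w w' x) :
    DifferentiableAt ℝ (fun y => upv u y (w y)) x ∧
    ∀ c, gg u x (fderiv ℝ (fun y => upv u y (w y)) x c) = w' c - CC u x c (upv u x (w x)) := by
  have hd : DifferentiableAt ℝ (fun y => upv u y (w y)) x :=
    ((S.cd_inverse hx).differentiableAt (by simp)).clm_apply hw.differentiableAt
  refine ⟨hd, fun c => ?_⟩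
  have h1 := (S.dAt S.cd_gg hx).clm_apply hd.hasFDerivAt
  have h2 : (fun y => gg u y (upv u y (w y))) =ᶠ[𝓝 x] w :=
    eventually_of_mem (S.isOpen.mem_nhds hx) fun y hy => S.gg_upv hy (w y)
  have := DFunLike.congr_fun (h1.unique (hw.congr_of_eventuallyEq h2)) c
  rw [eq_sub_iff_add_eq, ← this]
  rfl

lemma CC_symm₁ (S : Smooth Ω u) (hx : x ∈ Ω) (a b c : E) : CC u x a b c = CC u x b a c := by
  have := (S.cdAt S.cd_du hx).isSymmSndFDerivAt (by simp; decide) a b
  exact DFunLike.congr_fun this c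

lemma CC_symm₂ (S : Smooth Ω u) (hx : x ∈ Ω) (a b c : E) : CC u x a b c = CC u x a c b := by
  have h := S.dAt S.cd_gg hx
  have h1 := (h.clm_apply (hasFDerivAt_const b x)).clm_apply (hasFDerivAt_const c x)
  have h2 := (h.clm_apply (hasFDerivAt_const c x)).clm_apply (hasFDerivAt_const b x)
  have he : (fun y => gg u y c b) =ᶠ[𝓝 x] fun y => gg u y b c :=
    eventually_of_mem (S.isOpen.mem_nhds hx) fun y hy => S.gg_symm hy c b
  have := DFunLike.congr_fun (h1.unique (h2.congr_of_eventuallyEq he.symm)) a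
  simpa [CC] using this

/-- An orthonormal frame. -/
def Frame (u : E → ℝ) (x : E) (e : Fin 3 → E) : Prop :=
  ∀ a b, gg u x (e a) (e b) = if a = b then 1 else 0

lemma exists_frame (S : Smooth Ω u) (hx : x ∈ Ω) : ∃ e, Frame u x e := by
  obtain ⟨Q, hQ, hM⟩ : ∃ Q : Matrix (Fin 3) (Fin 3) ℝ, IsUnit Q ∧ hessian u x = Q.transpose * Q := by
    obtain ⟨Q, hQ, h⟩ := CStarAlgebra.isStrictlyPositive_iff_eq_star_mul_self.1
      (S.pos x hx).isStrictlyPositive
    exact ⟨Q, hQ, by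
      rw [h, Matrix.star_eq_conjTranspose, Matrix.conjTranspose_eq_transpose_of_trivial]⟩
  refine ⟨fun a => ∑ i, Q⁻¹ i a • sgl i, fun a b => ?_⟩
  have h1 : ((Q⁻¹).transpose * hessian u x * Q⁻¹) = 1 := by
    rw [hM, Matrix.transpose_nonsing_inv, ← Matrix.mul_assoc,
      Matrix.nonsing_inv_mul _ (by rw [Matrix.det_transpose]; exact (Matrix.isUnit_iff_isUnit_det Q).1 hQ),
      Matrix.one_mul, Matrix.mul_nonsing_inv _ ((Matrix.isUnit_iff_isUnit_det Q).1 hQ)]
  have h2 := congrFun (congrFun h1 a) b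
  rw [Matrix.one_apply] at h2
  simp only [map_sum, map_smul, _root_.sum_apply, smul_apply, smul_eq_mul, ← hessian_gg]
  rw [← h2]
  simp only [Matrix.mul_apply, Matrix.transpose_apply, Fin.sum_univ_three]
  ring

variable {e : Fin 3 → E}

/-- the basis of a frame -/
def frameBasis (he : Frame u x e) : Module.Basis (Fin 3) ℝ E :=
  basisOfLinearIndependentOfCardEqFinrank (b := e) (by
    rw [Fintype.linearIndependent_iff]
    intro c hc i
    have := congrArg (fun y => gg u x y (e i)) hc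
    simpa [map_sum, map_smul, _root_.sum_apply, smul_apply, he _ i] using this)
    (by simp)

lemma frameBasis_apply (he : Frame u x e) (a : Fin 3) : frameBasis he a = e a := by
  simp [frameBasis]

lemma frame_repr (he : Frame u x e) (y : E) (a : Fin 3) :
    (frameBasis he).repr y a = gg u x y (e a) := by
  conv_rhs => rw [← (frameBasis he).sum_repr y]
  simp [map_sum, map_smul, _root_.sum_apply, smul_apply, frameBasis_apply, he _ a]

lemma frame_expand (he : Frame u x e) (y : E) : y = ∑ a, gg u x y (e a) • e a := by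
  conv_lhs => rw [← (frameBasis he).sum_repr y]
  simp [frameBasis_apply, frame_repr]

lemma upv_frame (S : Smooth Ω u) (hx : x ∈ Ω) (he : Frame u x e) (w : E →L[ℝ] ℝ) :
    upv u x w = ∑ a, w (e a) • e a := by
  conv_lhs => rw [frame_expand he (upv u x w)]
  simp [S.gg_upv hx]

/-- evaluation at a raised covector -/
lemma apply_upv (S : Smooth Ω u) (hx : x ∈ Ω) (he : Frame u x e) (φ w : E →L[ℝ] ℝ) :
    φ (upv u x w) = ∑ a, w (e a) * φ (e a) := by
  rw [S.upv_frame hx he, map_sum]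
  simp

/-- evaluation in the frame -/
lemma apply_frame (he : Frame u x e) (φ : E →L[ℝ] ℝ) (y : E) :
    φ y = ∑ a, gg u x y (e a) * φ (e a) := by
  conv_lhs => rw [frame_expand he y]
  simp [map_sum]

lemma tr3_frame (he : Frame u x e) (T : E →L[ℝ] E) :
    tr3 T = ∑ a, gg u x (T (e a)) (e a) := by
  have h1 := LinearMap.trace_eq_matrix_trace ℝ (EuclideanSpace.basisFun (Fin 3) ℝ).toBasis
    (T : E →ₗ[ℝ] E)
  have h2 := LinearMap.trace_eq_matrix_trace ℝ (frameBasis he) (T : E →ₗ[ℝ] E)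
  simp [Matrix.trace, LinearMap.toMatrix_apply] at h1
  simp [Matrix.trace, LinearMap.toMatrix_apply, frame_repr, frameBasis_apply] at h2
  rw [tr3, ← h2, h1]

end Smooth

end Vale.Agent.P252E
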