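import Vale.Agent.P252E.Rel

/-!
The pointwise divergence identities.
-/

open Finset Topology Filter

noncomputable section

set_option maxSynthPendingDepth 3

namespace Vale.Agent.P252E

open Vale.Agent.P252B (IsAM)

variable {u : E → ℝ} {Ω : Set E} {x : E} {e : Fin 3 → E} {h : ℝ}

/-- `du / v` -/
def Uf (u : E → ℝ) (h : ℝ) (y : E) : E →L[ℝ] ℝ := (h - u y)⁻¹ • du u y

/-- the raised `dL` -/
def zL (u : E → ℝ) (y : E) : E := upv u y (DLf u y)

/-- the raised `du / v` -/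
def zU (u : E → ℝ) (h : ℝ) (y : E) : E := upv u y (Uf u h y)

/-- the covector fields -/
def wf (u : E → ℝ) (h : ℝ) : Fld → E → E →L[ℝ] ℝ
  | .l => DLf u
  | .u => Uf u h
  | .ml => fun y => D2L u y (zL u y)
  | .mu => fun y => D2L u y (zU u h y)
  | .al => fun y => CC u y (zL u y) (zL u y)
  | .au => fun y => CC u y (zL u y) (zU u h y)
  | .bu => fun y => CC u y (zU u h y) (zU u h y)

/-- the monomials -/
def monoF (u : E → ℝ) (h : ℝ) (k : ℕ × ℕ × ℕ) (y : E) : ℝ :=
  DLf u y (zL u y) ^ k.1 * DLf u y (zU u h y) ^ k.2.1 * Uf u h y (zU u h y) ^ k.2.2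

/-- the vector fields -/
def field (u : E → ℝ) (σ h : ℝ) (m : ℕ) (F : Fld) (k : ℕ × ℕ × ℕ) (y : E) : E :=
  ((h - u y) ^ m * Real.exp (-5 * σ * Lf u y) * monoF u h k y) • upv u y (wf u h F y)

/-- the jet in a frame -/
def jet (u : E → ℝ) (h : ℝ) (e : Fin 3 → E) (x : E) : Jet where
  L i := DLf u x (e i)
  U i := Uf u h x (e i)
  T := (h - u x)⁻¹
  M i j := D2L u x (e i) (e j)
  A i j := ∑ d, CC u x (e i) (e j) (e d) * DLf u x (e d)
  B i j := ∑ d, CC u x (e i) (e j) (e d) * Uf u h x (e d)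

namespace Smooth

lemma hasFDerivAt_Uf (S : Smooth Ω u) (hx : x ∈ Ω) (hv : u x < h) :
    ∃ U' : E →L[ℝ] E →L[ℝ] ℝ, HasFDerivAt (Uf u h) U' x ∧
      ∀ a b, U' a b = (h - u x)⁻¹ * gg u x a b + Uf u h x a * Uf u h x b := by
  have hne : h - u x ≠ 0 := (sub_pos.2 hv).ne'
  have h0 : HasFDerivAt (fun y => h - u y) (-du u x) x := (S.dAt S.smooth hx).const_sub h
  refine ⟨_, ((hasDerivAt_inv hne).comp_hasFDerivAt x h0).fun_smul (S.dAt S.cd_du hx), fun a b => ?_⟩
  simp [Uf, gg]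
  field_simp

lemma fderiv_pair (S : Smooth Ω u) (hx : x ∈ Ω) (he : Frame u x e)
    {a b : E → E →L[ℝ] ℝ} {a' b' : E →L[ℝ] E →L[ℝ] ℝ}
    (ha : HasFDerivAt a a' x) (hb : HasFDerivAt b b' x) :
    DifferentiableAt ℝ (fun y => a y (upv u y (b y))) x ∧
    ∀ c, fderiv ℝ (fun y => a y (upv u y (b y))) x c =
      ∑ i, (a' c (e i) * b x (e i) + a x (e i) * b' c (e i))
        - ∑ i, ∑ j, CC u x c (e i) (e j) * b x (e i) * a x (e j) := by
  obtain ⟨hz, hz'⟩ := S.gg_fderiv_upv hx hb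
  refine ⟨ha.differentiableAt.clm_apply hz, fun c => ?_⟩
  rw [(ha.clm_apply hz.hasFDerivAt).fderiv]
  simp only [add_apply, ContinuousLinearMap.comp_apply,
    ContinuousLinearMap.flip_apply]
  rw [apply_frame he (a x), S.apply_upv hx he]
  simp only [hz', S.upv_frame hx he, map_sum, map_smul, _root_.sum_apply, smul_apply, sub_apply,
    smul_eq_mul, Fin.sum_univ_three, map_add, add_apply]
  ring

/-- lowered derivative of a raised covector in the frame -/
lemma gz (S : Smooth Ω u) (hx : x ∈ Ω) (he : Frame u x e) {a : E → E →L[ℝ] ℝ}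
    {a' : E →L[ℝ] E →L[ℝ] ℝ} (ha : HasFDerivAt a a' x) (c : E) (p : Fin 3) :
    gg u x (fderiv ℝ (fun y => upv u y (a y)) x c) (e p) =
      a' c (e p) - ∑ q, a x (e q) * CC u x c (e q) (e p) := by
  rw [(S.gg_fderiv_upv hx ha).2, S.upv_frame hx he]
  simp [map_sum]

lemma trace_bil (S : Smooth Ω u) (hx : x ∈ Ω) (he : Frame u x e) {a : E → E →L[ℝ] ℝ}
    {a' : E →L[ℝ] E →L[ℝ] ℝ} (ha : HasFDerivAt a a' x)
    {B : E → E →L[ℝ] E →L[ℝ] ℝ} {B' : E →L[ℝ] E →L[ℝ] E →L[ℝ] ℝ} (hB : HasFDerivAt B B' x) :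
    DifferentiableAt ℝ (fun y => B y (upv u y (a y))) x ∧
    ∑ c, fderiv ℝ (fun y => B y (upv u y (a y))) x (e c) (e c) =
      (∑ p, a x (e p) * ∑ c, B' (e c) (e p) (e c)) +
      ∑ c, ∑ p, (a' (e c) (e p) - ∑ q, a x (e q) * CC u x (e c) (e q) (e p)) *
        B x (e p) (e c) := by
  have hz := (S.gg_fderiv_upv hx ha).1
  refine ⟨hB.differentiableAt.clm_apply hz, ?_⟩
  rw [(hB.clm_apply hz.hasFDerivAt).fderiv]
  simp only [add_apply, ContinuousLinearMap.comp_apply, ContinuousLinearMap.flip_apply,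
    Finset.sum_add_distrib]
  rw [add_comm]
  congr 1
  · rw [S.upv_frame hx he]
    simp only [map_sum, map_smul, _root_.sum_apply, smul_apply, smul_eq_mul]
    simp [Fin.sum_univ_three]
    ring
  · refine Finset.sum_congr rfl fun c _ => ?_
    have h1 := apply_frame he ((B x).flip (e c)) (fderiv ℝ (fun y => upv u y (a y)) x (e c))
    simp only [ContinuousLinearMap.flip_apply] at h1
    rw [h1]
    simp only [S.gz hx he ha]

lemma trace_cub (S : Smooth Ω u) (hx : x ∈ Ω) (he : Frame u x e) {a b : E → E →L[ℝ] ℝ}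
    {a' b' : E →L[ℝ] E →L[ℝ] ℝ} (ha : HasFDerivAt a a' x) (hb : HasFDerivAt b b' x) :
    DifferentiableAt ℝ (fun y => CC u y (upv u y (a y)) (upv u y (b y))) x ∧
    ∑ c, fderiv ℝ (fun y => CC u y (upv u y (a y)) (upv u y (b y))) x (e c) (e c) =
      (∑ p, ∑ r, a x (e p) * b x (e r) * ∑ c, fderiv ℝ (CC u) x (e c) (e p) (e r) (e c)) +
      (∑ c, ∑ p, (a' (e c) (e p) - ∑ q, a x (e q) * CC u x (e c) (e q) (e p)) *
        ∑ r, b x (e r) * CC u x (e p) (e r) (e c)) +
      ∑ c, ∑ r, (b' (e c) (e r) - ∑ q, b x (e q) * CC u x (e c) (e q) (e r)) *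
        ∑ p, a x (e p) * CC u x (e p) (e r) (e c) := by
  have hza := (S.gg_fderiv_upv hx ha).1
  have hzb := (S.gg_fderiv_upv hx hb).1
  have hC := S.dAt S.cd_CC hx
  refine ⟨(hC.differentiableAt.clm_apply hza).clm_apply hzb, ?_⟩
  rw [((hC.clm_apply hza.hasFDerivAt).clm_apply hzb.hasFDerivAt).fderiv]
  simp only [add_apply, ContinuousLinearMap.comp_apply, ContinuousLinearMap.flip_apply,
    Finset.sum_add_distrib]
  have h1 : ∀ c, CC u x (upv u x (a x)) (fderiv ℝ (fun y => upv u y (b y)) x (e c)) (e c) =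
      ∑ r, (b' (e c) (e r) - ∑ q, b x (e q) * CC u x (e c) (e q) (e r)) *
        ∑ p, a x (e p) * CC u x (e p) (e r) (e c) := fun c => by
    have h1 := apply_frame he ((CC u x (upv u x (a x))).flip (e c))
      (fderiv ℝ (fun y => upv u y (b y)) x (e c))
    simp only [ContinuousLinearMap.flip_apply] at h1
    rw [h1]
    simp only [S.gz hx he hb]
    rw [S.upv_frame hx he]
    simp [map_sum]
  have h2 : ∀ c, CC u x (fderiv ℝ (fun y => upv u y (a y)) x (e c)) (upv u x (b x)) (e c) =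
      ∑ p, (a' (e c) (e p) - ∑ q, a x (e q) * CC u x (e c) (e q) (e p)) *
        ∑ r, b x (e r) * CC u x (e p) (e r) (e c) := fun c => by
    have h1 := apply_frame he (((CC u x).flip (upv u x (b x))).flip (e c))
      (fderiv ℝ (fun y => upv u y (a y)) x (e c))
    simp only [ContinuousLinearMap.flip_apply] at h1
    rw [h1]
    simp only [S.gz hx he ha]
    rw [S.upv_frame hx he]
    simp [map_sum]
  have h3 : ∑ c, fderiv ℝ (CC u) x (e c) (upv u x (a x)) (upv u x (b x)) (e c) =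
      ∑ p, ∑ r, a x (e p) * b x (e r) * ∑ c, fderiv ℝ (CC u) x (e c) (e p) (e r) (e c) := by
    rw [S.upv_frame hx he, S.upv_frame hx he]
    simp only [map_sum, map_smul, _root_.sum_apply, smul_apply, smul_eq_mul, Fin.sum_univ_three,
      map_add, add_apply]
    ring
  rw [h3]
  simp only [h1, h2]
  ring

lemma jet_valid (S : Smooth Ω u) (hAM : IsAM Ω u) (hx : x ∈ Ω) (hv : u x < h)
    (he : Frame u x e) : (jet u h e x).Valid := by
  have hA : ∀ w : E →L[ℝ] ℝ, ∑ i, ∑ d, CC u x (e i) (e i) (e d) * w (e d) =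
      -5 * ∑ d, DLf u x (e d) * w (e d) := fun w => by
    rw [Finset.sum_comm, Finset.mul_sum]
    refine Finset.sum_congr rfl fun d _ => ?_
    rw [← Finset.sum_mul, ← mul_assoc, ← S.trC hx he (e d)]
    congr 1
    exact Finset.sum_congr rfl fun i _ => by
      rw [S.CC_symm₂ hx (e i) (e i), S.CC_symm₁ hx (e i) (e d)]
  refine ⟨inv_pos.2 (sub_pos.2 hv), fun i j => S.D2L_symm hx _ _, ?_, ?_, S.trM hAM hx he,
    hA _, hA _, fun i => ?_⟩
  · intro i j
    simp only [jet]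
    exact Finset.sum_congr rfl fun d _ => by rw [S.CC_symm₁ hx]
  · intro i j
    simp only [jet]
    exact Finset.sum_congr rfl fun d _ => by rw [S.CC_symm₁ hx]
  · simp only [app, jet, Finset.sum_mul]
    rw [Finset.sum_comm]
    exact Finset.sum_congr rfl fun a _ => Finset.sum_congr rfl fun b _ => by
      rw [S.CC_symm₂ hx (e i) (e b)]; ring

lemma fderiv_scalars (S : Smooth Ω u) (hx : x ∈ Ω) (hv : u x < h) (he : Frame u x e) :
    (DifferentiableAt ℝ (fun y => DLf u y (zL u y)) x ∧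
      ∀ k, fderiv ℝ (fun y => DLf u y (zL u y)) x (e k) = (jet u h e x).dX k) ∧
    (DifferentiableAt ℝ (fun y => DLf u y (zU u h y)) x ∧
      ∀ k, fderiv ℝ (fun y => DLf u y (zU u h y)) x (e k) = (jet u h e x).dP k) ∧
    (DifferentiableAt ℝ (fun y => Uf u h y (zU u h y)) x ∧
      ∀ k, fderiv ℝ (fun y => Uf u h y (zU u h y)) x (e k) = (jet u h e x).dY k) := by
  obtain ⟨U', hU, hU'⟩ := S.hasFDerivAt_Uf hx hv
  have hL := S.dAt S.cd_DLf hx
  refine ⟨⟨(S.fderiv_pair hx he hL hL).1, fun k => ?_⟩, ⟨(S.fderiv_pair hx he hL hU).1, fun k => ?_⟩,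
    ⟨(S.fderiv_pair hx he hU hU).1, fun k => ?_⟩⟩
  · rw [show fderiv ℝ (fun y => DLf u y (zL u y)) x = _ from rfl]
    unfold zL
    rw [(S.fderiv_pair hx he hL hL).2]
    simp only [Jet.dX, app, jet, D2L, Fin.sum_univ_three]
    ring
  · unfold zU
    rw [(S.fderiv_pair hx he hL hU).2]
    simp only [hU', he k, Jet.dP, Jet.P, dot, app, jet, Finset.sum_add_distrib, mul_add,
      Fin.sum_univ_three]
    simp only [D2L]
    fin_cases k <;> simp <;> ring
  · unfold zU
    rw [(S.fderiv_pair hx he hU hU).2]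
    simp only [hU', he k, Jet.dY, Jet.Y, dot, app, jet, Fin.sum_univ_three]
    fin_cases k <;> simp <;> ring

lemma trace_wf (S : Smooth Ω u) (hAM : IsAM Ω u) (hx : x ∈ Ω) (hv : u x < h)
    (he : Frame u x e) (F : Fld) :
    DifferentiableAt ℝ (wf u h F) x ∧
      ∑ c, fderiv ℝ (wf u h F) x (e c) (e c) = (jet u h e x).trDw F ∧
      ∀ i, wf u h F x (e i) = (jet u h e x).w F i := by
  obtain ⟨U', hU, hU'⟩ := S.hasFDerivAt_Uf hx hv
  have hL := S.dAt S.cd_DLf hx
  have hM := S.dAt S.cd_D2L hx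
  have hD2 : ∀ a b, fderiv ℝ (DLf u) x a b = D2L u x a b := fun a b => rfl
  have hdX : ∀ p, fderiv ℝ (fun y => DLf u y (upv u y (DLf u y))) x (e p) = (jet u h e x).dX p :=
    (S.fderiv_scalars hx hv he).1.2
  have hDM : ∀ p, ∑ c, fderiv ℝ (D2L u) x (e c) (e p) (e c) =
      ∑ a, ∑ b, D2L u x (e a) (e b) * CC u x (e p) (e b) (e a) - 4 * (jet u h e x).dX p := fun p => by
    have h1 := S.trDM hAM hx he (e p)
    rw [hdX] at h1
    rw [Finset.sum_congr rfl fun c _ => S.DM_symm₁ hx (e c) (e p) (e c)]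
    linarith
  have hDC : ∀ p r, ∑ c, fderiv ℝ (CC u) x (e c) (e p) (e r) (e c) =
      ∑ a, ∑ b, CC u x (e r) (e a) (e b) * CC u x (e p) (e b) (e a)
        - 5 * D2L u x (e p) (e r) := fun p r => by
    have h1 := S.trDC hx he (e p) (e r)
    rw [Finset.sum_congr rfl fun c _ => (S.DC_symm₁ hx (e c) (e p) (e r) (e c)).trans
      (S.DC_symm₂ hx (e p) (e c) (e r) (e c))]
    linarith
  have sC1 := fun a b c => S.CC_symm₁ hx (e a) (e b) (e c)
  have sC2 := fun a b c => S.CC_symm₂ hx (e a) (e b) (e c)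
  have sM := fun a b => S.D2L_symm hx (e a) (e b)
  have n1 := sC1 1 0; have n2 := sC1 2 0; have n3 := sC1 2 1
  have m1 := fun a => sC2 a 1 0; have m2 := fun a => sC2 a 2 0; have m3 := fun a => sC2 a 2 1
  have hg : ∀ a b, gg u x (e a) (e b) = if a = b then 1 else 0 := he
  cases F
  · exact ⟨hL.differentiableAt, S.trM hAM hx he, fun i => rfl⟩
  · refine ⟨hU.differentiableAt, ?_, fun i => rfl⟩
    simp only [wf, hU.fderiv, hU', hg, Jet.trDw, Jet.Y, dot, jet, Fin.sum_univ_three]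
    simp
    ring
  · obtain ⟨d1, d2⟩ := S.trace_bil hx he hL hM
    refine ⟨d1, d2.trans ?_, fun i => ?_⟩
    · simp only [hDM, hD2, Jet.trDw, dot, dot₂, jet, Fin.sum_univ_three, n1, n2, n3, m1, m2, m3,
        sM 1 0, sM 2 0, sM 2 1]
      ring
    · simp only [wf, zL, S.upv_frame hx he, Jet.w, app, jet, map_sum, map_smul, _root_.sum_apply,
        smul_apply, smul_eq_mul, Fin.sum_univ_three, map_add, add_apply, sM i]
      ring
  · obtain ⟨d1, d2⟩ := S.trace_bil hx he hU hM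
    refine ⟨d1, d2.trans ?_, fun i => ?_⟩
    · simp only [hDM, hU', hg, Jet.trDw, Jet.dU, dot, dot₂, jet, Fin.sum_univ_three, n1, n2, n3,
        m1, m2, m3, sM 1 0, sM 2 0, sM 2 1]
      simp
      ring
    · simp only [wf, zU, S.upv_frame hx he, Jet.w, app, jet, map_sum, map_smul, _root_.sum_apply,
        smul_apply, smul_eq_mul, Fin.sum_univ_three, map_add, add_apply, sM i]
      ring
  · obtain ⟨d1, d2⟩ := S.trace_cub hx he hL hL
    refine ⟨d1, d2.trans ?_, fun i => ?_⟩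
    · simp only [hDC, hD2, Jet.trDw, dot, dot₂, app, jet, Fin.sum_univ_three, n1, n2, n3, m1, m2,
        m3, sM 1 0, sM 2 0, sM 2 1]
      ring
    · simp only [wf, zL, S.upv_frame hx he, Jet.w, app, jet, map_sum, map_smul, _root_.sum_apply,
        smul_apply, smul_eq_mul, Fin.sum_univ_three, map_add, add_apply]
      fin_cases i <;> simp [n1, n2, n3, m1, m2, m3] <;> ring
  · obtain ⟨d1, d2⟩ := S.trace_cub hx he hL hU
    refine ⟨d1, d2.trans ?_, fun i => ?_⟩
    · simp only [hDC, hD2, hU', hg, Jet.trDw, Jet.dU, dot, dot₂, app, jet, Fin.sum_univ_three, n1,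
        n2, n3, m1, m2, m3, sM 1 0, sM 2 0, sM 2 1]
      simp
      ring
    · simp only [wf, zL, zU, S.upv_frame hx he, Jet.w, app, jet, map_sum, map_smul,
        _root_.sum_apply, smul_apply, smul_eq_mul, Fin.sum_univ_three, map_add, add_apply]
      fin_cases i <;> simp [n1, n2, n3, m1, m2, m3] <;> ring
  · obtain ⟨d1, d2⟩ := S.trace_cub hx he hU hU
    refine ⟨d1, d2.trans ?_, fun i => ?_⟩
    · simp only [hDC, hU', hg, Jet.trDw, Jet.dU, dot, dot₂, app, jet, Fin.sum_univ_three, n1,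
        n2, n3, m1, m2, m3, sM 1 0, sM 2 0, sM 2 1]
      simp
      ring
    · simp only [wf, zU, S.upv_frame hx he, Jet.w, app, jet, map_sum, map_smul,
        _root_.sum_apply, smul_apply, smul_eq_mul, Fin.sum_univ_three, map_add, add_apply]
      fin_cases i <;> simp [n1, n2, n3, m1, m2, m3] <;> ring

/-- The divergence of a field. -/
lemma tr3_field (S : Smooth Ω u) (hAM : IsAM Ω u) (hx : x ∈ Ω) (hv : u x < h)
    (he : Frame u x e) (σ : ℝ) (m : ℕ) (F : Fld) (k : ℕ × ℕ × ℕ) :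
    DifferentiableAt ℝ (field u σ h m F k) x ∧
    tr3 (fderiv ℝ (field u σ h m F k) x) =
      (h - u x) ^ m * Real.exp (-5 * σ * Lf u x) * (jet u h e x).Phi σ m F k := by
  obtain ⟨hw, hw1, hw2⟩ := S.trace_wf hAM hx hv he F
  obtain ⟨⟨dX0, dX1⟩, ⟨dP0, dP1⟩, ⟨dY0, dY1⟩⟩ := S.fderiv_scalars hx hv he
  obtain ⟨hz, hz'⟩ := S.gg_fderiv_upv hx hw.hasFDerivAt
  have hp : HasFDerivAt (fun y => (h - u y) ^ m * Real.exp (-5 * σ * Lf u y) * monoF u h k y) _ x :=
    (((HasFDerivAt.pow ((S.dAt S.smooth hx).const_sub h) m)).mul ((S.dAt S.cd_Lf hx).const_mul (-5 * σ)).exp).mul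
      (((HasFDerivAt.pow dX0.hasFDerivAt k.1).mul (HasFDerivAt.pow dP0.hasFDerivAt k.2.1)).mul
        (HasFDerivAt.pow dY0.hasFDerivAt k.2.2))
  refine ⟨hp.differentiableAt.smul hz, ?_⟩
  have hC : ∀ q, ∑ c, CC u x (e c) (e q) (e c) = -5 * DLf u x (e q) := fun q => by
    rw [← S.trC hx he]
    exact Finset.sum_congr rfl fun c _ => S.CC_symm₁ hx _ _ _
  have hX : DLf u x (zL u x) = (jet u h e x).X := by
    rw [zL, S.apply_upv hx he]; rfl
  have hP : DLf u x (zU u h x) = (jet u h e x).P := by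
    rw [zU, S.apply_upv hx he]
    exact Finset.sum_congr rfl fun i _ => mul_comm _ _
  have hY : Uf u h x (zU u h x) = (jet u h e x).Y := by
    rw [zU, S.apply_upv hx he]; rfl
  have hvU : ∀ c, fderiv ℝ u x (e c) = (h - u x) * (jet u h e x).U c := fun c => by
    simp [jet, Uf, du, (sub_pos.2 hv).ne']
  have hfl : field u σ h m F k =
      fun y => ((h - u y) ^ m * Real.exp (-5 * σ * Lf u y) * monoF u h k y) •
        upv u y (wf u h F y) := rfl
  rw [tr3_frame he, hfl, (hp.fun_smul hz.hasFDerivAt).fderiv]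
  have hterm : ∀ c : Fin 3, gg u x ((upv u x (wf u h F x))) (e c) = (jet u h e x).w F c :=
    fun c => by rw [S.gg_upv hx, hw2]
  have hsum : ∑ c, CC u x (e c) (upv u x (wf u h F x)) (e c) =
      -5 * dot (jet u h e x).L ((jet u h e x).w F) := by
    rw [S.upv_frame hx he]
    simp only [map_sum, map_smul, _root_.sum_apply, smul_apply, smul_eq_mul]
    rw [Finset.sum_comm, dot, Finset.mul_sum]
    refine Finset.sum_congr rfl fun q _ => ?_
    rw [← Finset.mul_sum, hC, hw2]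
    show _ = -5 * (DLf u x (e q) * _)
    ring
  have hdv : m * (h - u x) ^ (m - 1) * (h - u x) = m * (h - u x) ^ m := by
    cases m with
    | zero => simp
    | succ n => rw [Nat.add_sub_cancel, pow_succ]; ring
  simp only [add_apply, smul_apply, ContinuousLinearMap.smulRight_apply,
    ContinuousLinearMap.toSpanSingleton_apply, map_add, map_smul, hterm, hz', sub_apply,
    smul_eq_mul, neg_apply, hvU, dX1, dP1, dY1, hX, hP, hY, monoF, Finset.sum_add_distrib,
    ← Finset.mul_sum, Finset.sum_sub_distrib, hw1, hsum]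
  simp only [Jet.Phi, Jet.mono, Jet.dmono, dot, Fin.sum_univ_three, nsmul_eq_mul]
  have hLc : ∀ c, fderiv ℝ (Lf u) x (e c) = (jet u h e x).L c := fun c => rfl
  simp only [hLc, Pi.mul_apply, hX, hP]
  linear_combination (-(Real.exp (-5 * σ * Lf u x) * ((jet u h e x).X ^ k.1 * (jet u h e x).P ^ k.2.1
    * (jet u h e x).Y ^ k.2.2) * ((jet u h e x).U 0 * (jet u h e x).w F 0
      + (jet u h e x).U 1 * (jet u h e x).w F 1 + (jet u h e x).U 2 * (jet u h e x).w F 2))) * hdv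

end Smooth

end Vale.Agent.P252E
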