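import Vale.Agent.P252E.Basic

/-!
The trace relations of a solution of the affine maximal equation and their derivatives.
-/

open Finset Topology Filter

noncomputable section

set_option maxSynthPendingDepth 3

namespace Vale.Agent.P252E

open Vale.Agent.P252 (hessian)
open Vale.Agent.P252B (IsAM hasDerivAt_det)

variable {u : E → ℝ} {Ω : Set E} {x : E} {e : Fin 3 → E}

namespace Smooth

/-- The trace with respect to `g` in coordinates. -/
lemma tr3_inverse (S : Smooth Ω u) (hx : x ∈ Ω) (B : E →L[ℝ] E →L[ℝ] ℝ) :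
    tr3 ((gg u x).inverse ∘L B) =
      ∑ i, ∑ j, B (sgl i) (sgl j) * (hessian u x)⁻¹ j i := by
  set N : Matrix (Fin 3) (Fin 3) ℝ := Matrix.of fun j k => (upv u x (B (sgl j))) k
  have hN : N * hessian u x = Matrix.of fun j i => B (sgl j) (sgl i) := by
    ext j i
    have h := DFunLike.congr_fun (S.gg_upv hx (B (sgl j))) (sgl i)
    rw [Matrix.of_apply, ← h]
    conv_rhs => rw [expand (upv u x (B (sgl j)))]
    simp only [Matrix.mul_apply, N, Matrix.of_apply, map_sum, map_smul, _root_.sum_apply,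
      smul_apply, smul_eq_mul, hessian_gg]
  have hu : IsUnit (hessian u x).det := (S.pos x hx).det_pos.ne'.isUnit
  have hN' : N = (Matrix.of fun j i => B (sgl j) (sgl i)) * (hessian u x)⁻¹ := by
    rw [← hN, Matrix.mul_assoc, Matrix.mul_nonsing_inv _ hu, Matrix.mul_one]
  change ∑ i, N i i = _
  rw [hN']
  simp [Matrix.mul_apply]

lemma tr3_inverse_frame (S : Smooth Ω u) (hx : x ∈ Ω) (he : Frame u x e)
    (B : E →L[ℝ] E →L[ℝ] ℝ) : tr3 ((gg u x).inverse ∘L B) = ∑ a, B (e a) (e a) := by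
  rw [tr3_frame he]
  refine Finset.sum_congr rfl fun a _ => ?_
  exact DFunLike.congr_fun (S.gg_upv hx (B (e a))) (e a)

lemma DLf_eq (S : Smooth Ω u) (hx : x ∈ Ω) (v : E) :
    DLf u x v = -(1 / 5) * tr3 ((gg u x).inverse ∘L CC u x v) := by
  have h1 : HasDerivAt (fun t : ℝ => Lf u (x + t • v)) (DLf u x v) 0 :=
    (S.dAt S.cd_Lf hx).hasLineDerivAt v
  have h2 : ∀ i j, HasDerivAt (fun t : ℝ => hessian u (x + t • v) i j)
      (CC u x v (sgl i) (sgl j)) 0 := fun i j => by
    have := ((((S.dAt S.cd_gg hx).clm_apply (hasFDerivAt_const (sgl i) x)).clm_apply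
      (hasFDerivAt_const (sgl j) x))).hasLineDerivAt v
    simpa [HasLineDerivAt, CC, hessian_gg] using this
  have h3 := ((hasDerivAt_det (M := fun t : ℝ => hessian u (x + t • v))
    (M' := Matrix.of fun i j => CC u x v (sgl i) (sgl j)) h2).log
    (by simpa using (S.pos x hx).det_pos.ne')).neg.div_const 5
  rw [h1.unique h3, S.tr3_inverse hx]
  simp only [zero_smul, add_zero, Matrix.inv_def, Ring.inverse_eq_inv', Matrix.smul_apply,
    smul_eq_mul, Matrix.trace, Matrix.diag, Matrix.mul_apply, Matrix.of_apply, neg_div,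
    Finset.sum_div, Finset.mul_sum]
  rw [Finset.sum_comm, ← Finset.sum_neg_distrib]
  refine Finset.sum_congr rfl fun i _ => ?_
  rw [← Finset.sum_neg_distrib]
  exact Finset.sum_congr rfl fun j _ => by ring

lemma D2L_symm (S : Smooth Ω u) (hx : x ∈ Ω) (a b : E) : D2L u x a b = D2L u x b a :=
  (S.cdAt S.cd_Lf hx).isSymmSndFDerivAt (by simp; decide) a b

/-- The equation in intrinsic form. -/
lemma am (S : Smooth Ω u) (hAM : IsAM Ω u) (hx : x ∈ Ω) :
    tr3 ((gg u x).inverse ∘L D2L u x) = -4 * DLf u x (upv u x (DLf u x)) := by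
  have hev : (fun y => (hessian u y).det ^ (-((((3 : ℕ) : ℝ) + 1) / (((3 : ℕ) : ℝ) + 2))))
      =ᶠ[𝓝 x] fun y => Real.exp (4 * Lf u y) :=
    eventually_of_mem (S.isOpen.mem_nhds hx) fun y hy => by
      simp only [Real.rpow_def_of_pos (S.pos y hy).det_pos, Lf]
      congr 1; push_cast; ring
  have hd : ∀ y ∈ Ω, HasFDerivAt (fun y => Real.exp (4 * Lf u y))
      ((4 * Real.exp (4 * Lf u y)) • DLf u y) y := fun y hy => by
    have := ((S.dAt S.cd_Lf hy).const_mul 4).exp
    rwa [smul_smul, mul_comm] at this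
  have hev2 : fderiv ℝ (fun y => Real.exp (4 * Lf u y)) =ᶠ[𝓝 x]
      fun y => (4 * Real.exp (4 * Lf u y)) • DLf u y :=
    eventually_of_mem (S.isOpen.mem_nhds hx) fun y hy => (hd y hy).fderiv
  have hd2 := ((hd x hx).const_mul 4).fun_smul (S.dAt S.cd_DLf hx)
  have key : ∀ i j, hessian (fun y => (hessian u y).det ^
      (-((((3 : ℕ) : ℝ) + 1) / (((3 : ℕ) : ℝ) + 2)))) x i j = 4 * Real.exp (4 * Lf u x) *
      (D2L u x (sgl i) (sgl j) + 4 * (DLf u x (sgl i) * DLf u x (sgl j))) := fun i j => by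
    change fderiv ℝ (fderiv ℝ _) x (sgl i) (sgl j) = _
    rw [(hev.fderiv.trans hev2).fderiv_eq, hd2.fderiv]
    simp [D2L]
    ring
  set B : E →L[ℝ] E →L[ℝ] ℝ := (DLf u x).smulRight (DLf u x) with hB
  have hBt : tr3 ((gg u x).inverse ∘L B) = DLf u x (upv u x (DLf u x)) := by
    conv_rhs => rw [expand (upv u x (DLf u x))]
    simp only [tr3, hB, ContinuousLinearMap.comp_apply, ContinuousLinearMap.smulRight_apply,
      map_smul, map_sum, smul_eq_mul, upv]
    exact Finset.sum_congr rfl fun i _ => by simp [mul_comm]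
  have h := hAM x hx
  simp only [key] at h
  have hc : 4 * Real.exp (4 * Lf u x) * (hessian u x).det *
      (tr3 ((gg u x).inverse ∘L D2L u x) + 4 * tr3 ((gg u x).inverse ∘L B)) = 0 := by
    rw [← h, S.tr3_inverse hx, S.tr3_inverse hx, Finset.sum_comm (γ := Fin 3),
      Finset.sum_comm (γ := Fin 3) (f := fun i j => B (sgl i) (sgl j) * (hessian u x)⁻¹ j i)]
    simp only [Finset.mul_sum, ← Finset.sum_add_distrib]
    refine Finset.sum_congr rfl fun i _ => Finset.sum_congr rfl fun j _ => ?_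
    rw [S.D2L_symm hx (sgl j) (sgl i), hB]
    simp only [ContinuousLinearMap.smulRight_apply, smul_apply, smul_eq_mul]
    ring
  have hne : 4 * Real.exp (4 * Lf u x) * (hessian u x).det ≠ 0 := by
    have := (S.pos x hx).det_pos
    positivity
  have h0 := (mul_eq_zero.1 hc).resolve_left hne
  rw [hBt] at h0
  linarith

/-- Derivative of a trace. -/
lemma fderiv_tr (S : Smooth Ω u) (hx : x ∈ Ω) (he : Frame u x e)
    {B : E → E →L[ℝ] E →L[ℝ] ℝ} {B' : E →L[ℝ] E →L[ℝ] E →L[ℝ] ℝ} (hB : HasFDerivAt B B' x)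
    (p : E) : fderiv ℝ (fun y => tr3 ((gg u y).inverse ∘L B y)) x p =
      ∑ a, B' p (e a) (e a) - ∑ a, ∑ b, B x (e a) (e b) * CC u x p (e b) (e a) := by
  have hz : ∀ i, DifferentiableAt ℝ (fun y => upv u y (B y (sgl i))) x ∧
      ∀ c, fderiv ℝ (fun y => upv u y (B y (sgl i))) x c =
        upv u x (B' c (sgl i) - CC u x c (upv u x (B x (sgl i)))) := fun i => by
    have := S.gg_fderiv_upv hx (hB.clm_apply (hasFDerivAt_const (sgl i) x))
    refine ⟨this.1, fun c => S.gg_inj hx ?_⟩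
    rw [this.2, S.gg_upv hx]
    simp
  have hd : HasFDerivAt (fun y => tr3 ((gg u y).inverse ∘L B y))
      (∑ i, (EuclideanSpace.proj i : E →L[ℝ] ℝ) ∘L
        fderiv ℝ (fun y => upv u y (B y (sgl i))) x) x :=
    HasFDerivAt.fun_sum fun i _ =>
      (EuclideanSpace.proj i : E →L[ℝ] ℝ).hasFDerivAt.comp x (hz i).1.hasFDerivAt
  set T : E →L[ℝ] E := (gg u x).inverse ∘L
    (B' p - CC u x p ∘L ((gg u x).inverse ∘L B x)) with hT
  have : fderiv ℝ (fun y => tr3 ((gg u y).inverse ∘L B y)) x p = tr3 T := by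
    rw [hd.fderiv]
    have h2 := fun i => (hz i).2 p
    simp only [upv] at h2
    simp [tr3, hT, upv, h2, _root_.sum_apply]
  rw [this, S.tr3_inverse_frame hx he, ← Finset.sum_sub_distrib]
  refine Finset.sum_congr rfl fun a _ => ?_
  simp only [sub_apply, ContinuousLinearMap.comp_apply]
  congr 1
  rw [show (gg u x).inverse (B x (e a)) = upv u x (B x (e a)) from rfl, S.upv_frame hx he,
    map_sum, _root_.sum_apply]
  simp

lemma trC (S : Smooth Ω u) (hx : x ∈ Ω) (he : Frame u x e) (v : E) :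
    ∑ a, CC u x v (e a) (e a) = -5 * DLf u x v := by
  rw [S.DLf_eq hx, S.tr3_inverse_frame hx he]; ring

lemma trM (S : Smooth Ω u) (hAM : IsAM Ω u) (hx : x ∈ Ω) (he : Frame u x e) :
    ∑ a, D2L u x (e a) (e a) = -4 * ∑ a, DLf u x (e a) * DLf u x (e a) := by
  rw [← S.tr3_inverse_frame hx he, S.am hAM hx, S.apply_upv hx he]

lemma trDC (S : Smooth Ω u) (hx : x ∈ Ω) (he : Frame u x e) (p k : E) :
    ∑ a, fderiv ℝ (CC u) x p k (e a) (e a)
      - ∑ a, ∑ b, CC u x k (e a) (e b) * CC u x p (e b) (e a) = -5 * D2L u x p k := by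
  have hB := (S.dAt S.cd_CC hx).clm_apply (hasFDerivAt_const k x)
  have h := S.fderiv_tr hx he hB p
  have hev : (fun y => tr3 ((gg u y).inverse ∘L CC u y k)) =ᶠ[𝓝 x] fun y => -5 * DLf u y k :=
    eventually_of_mem (S.isOpen.mem_nhds hx) fun y hy => by
      show tr3 ((gg u y).inverse ∘L CC u y k) = -5 * DLf u y k
      rw [S.DLf_eq hy]; ring
  rw [hev.fderiv_eq, (((S.dAt S.cd_DLf hx).clm_apply (hasFDerivAt_const k x)).const_mul
    (-5)).fderiv] at h
  simp [D2L] at h ⊢
  linarith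

lemma trDM (S : Smooth Ω u) (hAM : IsAM Ω u) (hx : x ∈ Ω) (he : Frame u x e) (p : E) :
    ∑ a, fderiv ℝ (D2L u) x p (e a) (e a)
      - ∑ a, ∑ b, D2L u x (e a) (e b) * CC u x p (e b) (e a) =
      -4 * fderiv ℝ (fun y => DLf u y (upv u y (DLf u y))) x p := by
  have h := S.fderiv_tr hx he (S.dAt S.cd_D2L hx) p
  have hev : (fun y => tr3 ((gg u y).inverse ∘L D2L u y)) =ᶠ[𝓝 x]
      fun y => -4 * DLf u y (upv u y (DLf u y)) :=
    eventually_of_mem (S.isOpen.mem_nhds hx) fun y hy => S.am hAM hy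
  rw [← h, hev.fderiv_eq, fderiv_const_mul
    ((S.dAt S.cd_DLf hx).differentiableAt.clm_apply
      ((S.dAt (S.cd_upv S.cd_DLf) hx).differentiableAt))]
  simp

lemma DC_symm₁ (S : Smooth Ω u) (hx : x ∈ Ω) (a b c d : E) :
    fderiv ℝ (CC u) x a b c d = fderiv ℝ (CC u) x b a c d := by
  have := (S.cdAt S.cd_gg hx).isSymmSndFDerivAt (by simp; decide) a b
  exact DFunLike.congr_fun (DFunLike.congr_fun this c) d

lemma DC_symm₂ (S : Smooth Ω u) (hx : x ∈ Ω) (a b c d : E) :
    fderiv ℝ (CC u) x a b c d = fderiv ℝ (CC u) x a c b d := by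
  have h := S.dAt S.cd_CC hx
  have h1 := ((h.clm_apply (hasFDerivAt_const b x)).clm_apply (hasFDerivAt_const c x)).clm_apply
    (hasFDerivAt_const d x)
  have h2 := ((h.clm_apply (hasFDerivAt_const c x)).clm_apply (hasFDerivAt_const b x)).clm_apply
    (hasFDerivAt_const d x)
  have he : (fun y => CC u y c b d) =ᶠ[𝓝 x] fun y => CC u y b c d :=
    eventually_of_mem (S.isOpen.mem_nhds hx) fun y hy => S.CC_symm₁ hy c b d
  have := DFunLike.congr_fun (h1.unique (h2.congr_of_eventuallyEq he.symm)) a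
  simpa using this

lemma DC_symm₃ (S : Smooth Ω u) (hx : x ∈ Ω) (a b c d : E) :
    fderiv ℝ (CC u) x a b c d = fderiv ℝ (CC u) x a b d c := by
  have h := S.dAt S.cd_CC hx
  have h1 := ((h.clm_apply (hasFDerivAt_const b x)).clm_apply (hasFDerivAt_const c x)).clm_apply
    (hasFDerivAt_const d x)
  have h2 := ((h.clm_apply (hasFDerivAt_const b x)).clm_apply (hasFDerivAt_const d x)).clm_apply
    (hasFDerivAt_const c x)
  have he : (fun y => CC u y b d c) =ᶠ[𝓝 x] fun y => CC u y b c d :=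
    eventually_of_mem (S.isOpen.mem_nhds hx) fun y hy => S.CC_symm₂ hy b d c
  have := DFunLike.congr_fun (h1.unique (h2.congr_of_eventuallyEq he.symm)) a
  simpa using this

lemma DM_symm₁ (S : Smooth Ω u) (hx : x ∈ Ω) (a b c : E) :
    fderiv ℝ (D2L u) x a b c = fderiv ℝ (D2L u) x b a c :=
  DFunLike.congr_fun ((S.cdAt S.cd_DLf hx).isSymmSndFDerivAt (by simp; decide) a b) c

lemma DM_symm₂ (S : Smooth Ω u) (hx : x ∈ Ω) (a b c : E) :
    fderiv ℝ (D2L u) x a b c = fderiv ℝ (D2L u) x a c b := by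
  have h := S.dAt S.cd_D2L hx
  have h1 := (h.clm_apply (hasFDerivAt_const b x)).clm_apply (hasFDerivAt_const c x)
  have h2 := (h.clm_apply (hasFDerivAt_const c x)).clm_apply (hasFDerivAt_const b x)
  have he : (fun y => D2L u y c b) =ᶠ[𝓝 x] fun y => D2L u y b c :=
    eventually_of_mem (S.isOpen.mem_nhds hx) fun y hy => S.D2L_symm hy c b
  have := DFunLike.congr_fun (h1.unique (h2.congr_of_eventuallyEq he.symm)) a
  simpa using this

end Smooth

end Vale.Agent.P252E
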